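import Vale.Agent.P355.H909V.Tr
import Vale.Agent.P355.H950S.Ct
import Vale.Agent.P355.H909S.P0
import Vale.Agent.P355.H909S.P1
import Vale.Agent.P355.H909S.P2
import Vale.Agent.P355.H909S.P3
import Vale.Agent.P355.H909S.V0
import Vale.Agent.P355.H909S.V1
import Vale.Agent.P355.H909S.V2
import Vale.Agent.P355.H909S.V3
import Vale.Agent.P355.H909S.V4
import Vale.Agent.P355.H909S.V5
import Vale.Agent.P355.H909S.V6
import Vale.Agent.P355.H909S.V7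
import Vale.Agent.P355.H909S.V8
import Vale.Agent.P355.H909S.V9
import Vale.Agent.P355.H909S.V10
import Vale.Agent.P355.H909S.V11
import Vale.Agent.P355.H909S.V12
import Vale.Agent.P355.H909S.V13

namespace Vale.Agent.P355.H909S

open Vale.Agent.P355 Vale.Agent.P355.H129V
open Vale.Agent.P355.H387 (CT evL Cls)
open Vale.Agent.P355.H637 (CV)
open Vale.Agent.P355.H909V (SG U4)
open Vale.Agent.P355.H909ST (ct)

def oA : List (ℕ × ℕ) := (o0 ++ (o1 ++ (o2 ++ (o3 ++ (o4 ++ (o5 ++ (o6 ++ (o7 ++ (o8 ++ (o9 ++ (o10 ++ (o11 ++ (o12 ++ (o13 ++ (o14 ++ (o15 ++ (o16 ++ (o17 ++ (o18 ++ (o19 ++ (o20 ++ (o21 ++ (o22 ++ (o23 ++ (o24 ++ ((o25 ++ o26) ++ ((o27 ++ o28) ++ ((o29 ++ o30) ++ ((o31 ++ o32) ++ ((o33 ++ o34) ++ ((o35 ++ o36) ++ ((o37 ++ o38) ++ ((o39 ++ o40) ++ ((o41 ++ o42) ++ ((o43 ++ o44) ++ ((o45 ++ o46) ++ ((o47 ++ o48) ++ ((o49 ++ o50) ++ ((o51 ++ o52) ++ ((o53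 ++ o54) ++ ((o55 ++ o56) ++ ((o57 ++ o58) ++ ((o59 ++ o60) ++ ((o61 ++ o62) ++ ((o63 ++ o64) ++ ((o65 ++ o66) ++ ((o67 ++ o68) ++ ((o69 ++ o70) ++ ((o71 ++ o72) ++ ((o73 ++ o74) ++ ((o75 ++ o76) ++ ((o77 ++ o78) ++ ((o79 ++ o80) ++ ((o81 ++ o82) ++ ((o83 ++ o84) ++ ((o85 ++ o86) ++ ((o87 ++ o88) ++ ((o89 ++ o90) ++ ((o91 ++ o92) ++ ((o93 ++ o94) ++ ((o95 ++ o96) ++ ((o97 ++ o98) ++ ((o99 ++ (o100 ++ o101)) ++ ((o102 ++ (o103 ++ o104)) ++ ((o105 ++ (o106 ++ o107)) ++ ((o108 ++ (o109 ++ o110)) ++ ((o111 ++ (o112 ++ o113)) ++ ((o114 ++ (o115 ++ o116)) ++ ((o117 ++ (o118 ++ o119)) ++ ((o120 ++ (o121 ++ o122)) ++ ((o123 ++ (o124 ++ o125)) ++ ((o126 ++ (o127 ++ o128)) ++ ((o129 ++ (o130 ++ o131)) ++ ((o132 ++ (o133 ++ o134)) ++ ((o135 ++ (o136 ++ o137)) ++ ((o138 ++ (o139 ++ o140)) ++ ((o141 ++ (o142 ++ o143)) ++ ((o144 ++ (o145 ++ o146)) ++ ((o147 ++ (o148 ++ o149))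 ++ ((o150 ++ (o151 ++ o152)) ++ ((o153 ++ (o154 ++ o155)) ++ ((o156 ++ o157) ++ ((o158 ++ o159) ++ ((o160 ++ o161) ++ ((o162 ++ (o163 ++ o164)) ++ ((o165 ++ (o166 ++ o167)) ++ ((o168 ++ (o169 ++ o170)) ++ ((o171 ++ (o172 ++ (o173 ++ o174))) ++ ((o175 ++ (o176 ++ (o177 ++ (o178 ++ o179)))) ++ ((o180 ++ (o181 ++ (o182 ++ (o183 ++ o184)))) ++ ((o185 ++ (o186 ++ (o187 ++ (o188 ++ o189)))) ++ ((o190 ++ (o191 ++ (o192 ++ (o193 ++ o194)))) ++ ((o195 ++ (o196 ++ (o197 ++ (o198 ++ o199)))) ++ ((o200 ++ (o201 ++ (o202 ++ (o203 ++ o204)))) ++ ((o205 ++ (o206 ++ (o207 ++ (o208 ++ o209)))) ++ ((o210 ++ (o211 ++ (o212 ++ (o213 ++ o214)))) ++ ((o215 ++ (o216 ++ (o217 ++ (o218 ++ o219)))) ++ ((o220 ++ (o221 ++ (o222 ++ (o223 ++ o224)))) ++ ((o225 ++ (o226 ++ (o227 ++ (o228 ++ o229)))) ++ ((o230 ++ (o231 ++ (o232 ++ (o233 ++ o234)))) ++ ((o235 ++ (o236 ++ (o237 ++ (o238 ++ o239))))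 ++ ((o240 ++ (o241 ++ (o242 ++ (o243 ++ (o244 ++ o245))))) ++ ((o246 ++ (o247 ++ (o248 ++ (o249 ++ (o250 ++ o251))))) ++ ((o252 ++ (o253 ++ (o254 ++ (o255 ++ (o256 ++ o257))))) ++ ((o258 ++ (o259 ++ (o260 ++ (o261 ++ (o262 ++ o263))))) ++ ((o264 ++ (o265 ++ (o266 ++ (o267 ++ (o268 ++ o269))))) ++ ((o270 ++ (o271 ++ (o272 ++ (o273 ++ (o274 ++ o275))))) ++ ((o276 ++ (o277 ++ (o278 ++ (o279 ++ (o280 ++ o281))))) ++ ((o282 ++ (o283 ++ (o284 ++ (o285 ++ (o286 ++ o287))))) ++ ((o288 ++ (o289 ++ (o290 ++ (o291 ++ (o292 ++ o293))))) ++ ((o294 ++ (o295 ++ (o296 ++ (o297 ++ (o298 ++ o299))))) ++ ((o300 ++ (o301 ++ (o302 ++ (o303 ++ (o304 ++ o305))))) ++ ((o306 ++ (o307 ++ (o308 ++ (o309 ++ (o310 ++ o311))))) ++ ((o312 ++ (o313 ++ (o314 ++ (o315 ++ (o316 ++ o317))))) ++ ((o318 ++ (o319 ++ (o320 ++ (o321 ++ (o322 ++ (o323 ++ o324)))))) ++ ((o325 ++ (o326 ++ (o327 ++ (o328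 ++ (o329 ++ (o330 ++ o331)))))) ++ ((o332 ++ (o333 ++ (o334 ++ (o335 ++ (o336 ++ (o337 ++ o338)))))) ++ ((o339 ++ (o340 ++ (o341 ++ (o342 ++ (o343 ++ (o344 ++ o345)))))) ++ ((o346 ++ (o347 ++ (o348 ++ (o349 ++ (o350 ++ (o351 ++ o352)))))) ++ ((o353 ++ (o354 ++ (o355 ++ (o356 ++ (o357 ++ (o358 ++ o359)))))) ++ ((o360 ++ (o361 ++ (o362 ++ (o363 ++ (o364 ++ (o365 ++ o366)))))) ++ ((o367 ++ (o368 ++ (o369 ++ (o370 ++ (o371 ++ (o372 ++ o373)))))) ++ ((o374 ++ (o375 ++ (o376 ++ (o377 ++ (o378 ++ (o379 ++ o380)))))) ++ ((o381 ++ (o382 ++ (o383 ++ (o384 ++ (o385 ++ (o386 ++ o387)))))) ++ ((o388 ++ (o389 ++ (o390 ++ (o391 ++ (o392 ++ (o393 ++ o394)))))) ++ ((o395 ++ (o396 ++ (o397 ++ (o398 ++ (o399 ++ (o400 ++ o401)))))) ++ ((o402 ++ (o403 ++ (o404 ++ (o405 ++ (o406 ++ (o407 ++ o408)))))) ++ ((o409 ++ (o410 ++ (o411 ++ (o412 ++ (o413 ++ (o414 ++ (o415 ++ o416)))))))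 ++ ((o417 ++ (o418 ++ (o419 ++ (o420 ++ (o421 ++ (o422 ++ (o423 ++ o424))))))) ++ ((o425 ++ (o426 ++ (o427 ++ (o428 ++ (o429 ++ (o430 ++ (o431 ++ o432))))))) ++ ((o433 ++ (o434 ++ (o435 ++ (o436 ++ (o437 ++ (o438 ++ (o439 ++ o440))))))) ++ ((o441 ++ (o442 ++ o443)) ++ ((o444 ++ (o445 ++ o446)) ++ ((o447 ++ (o448 ++ o449)) ++ ((o450 ++ (o451 ++ o452)) ++ ((o453 ++ (o454 ++ o455)) ++ ((o456 ++ (o457 ++ o458)) ++ ((o459 ++ (o460 ++ (o461 ++ (o462 ++ o463)))) ++ ((o464 ++ (o465 ++ (o466 ++ (o467 ++ o468)))) ++ ((o469 ++ (o470 ++ (o471 ++ o472))) ++ ((o473 ++ (o474 ++ (o475 ++ (o476 ++ o477)))) ++ ((o478 ++ (o479 ++ (o480 ++ (o481 ++ o482)))) ++ ((o483 ++ (o484 ++ (o485 ++ o486))) ++ ((o487 ++ (o488 ++ (o489 ++ (o490 ++ o491)))) ++ ((o492 ++ (o493 ++ (o494 ++ o495))) ++ ((o496 ++ (o497 ++ (o498 ++ (o499 ++ o500)))) ++ ((o501 ++ (o502 ++ (o503 ++ (o504 ++ o505))))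 ++ ((o506 ++ (o507 ++ (o508 ++ o509))) ++ ((o510 ++ (o511 ++ (o512 ++ (o513 ++ o514)))) ++ ((o515 ++ (o516 ++ (o517 ++ (o518 ++ o519)))) ++ ((o520 ++ (o521 ++ (o522 ++ o523))) ++ ((o524 ++ (o525 ++ (o526 ++ (o527 ++ o528)))) ++ ((o529 ++ (o530 ++ (o531 ++ (o532 ++ o533)))) ++ ((o534 ++ (o535 ++ (o536 ++ (o537 ++ o538)))) ++ ((o539 ++ (o540 ++ (o541 ++ (o542 ++ o543)))) ++ ((o544 ++ (o545 ++ (o546 ++ (o547 ++ o548)))) ++ ((o549 ++ (o550 ++ (o551 ++ (o552 ++ o553)))) ++ ((o554 ++ (o555 ++ (o556 ++ (o557 ++ o558)))) ++ ((o559 ++ (o560 ++ (o561 ++ (o562 ++ (o563 ++ o564))))) ++ (o565 ++ (o566 ++ (o567 ++ (o568 ++ o569)))))))))))))))))))))))))))))))))))))))))))))))))))))))))))))))))))))))))))))))))))))))))))))))))))))))))))))))))))))))))))))))))))))))))))))))))))))))))))))))))))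

theorem cA : CV ct fl 86 68719476736 0 T oA := (c0.app n0 (c1.app n1 (c2.app n2 (c3.app n3 (c4.app n4 (c5.app n5 (c6.app n6 (c7.app n7 (c8.app n8 (c9.app n9 (c10.app n10 (c11.app n11 (c12.app n12 (c13.app n13 (c14.app n14 (c15.app n15 (c16.app n16 (c17.app n17 (c18.app n18 (c19.app n19 (c20.app n20 (c21.app n21 (c22.app n22 (c23.app n23 (c24.app n24 (c25.app n25 (c26.app n26 (c27.app n27 (c28.app n28 (c29.app n29 (c30.app n30 (c31.app n31 (c32.app n32 (c33.app n33 (c34.app n34 (c35.app n35 (c36.app n36 (c37.app n37 (c38.app n38 (c39.app n39 (c40.app n40 (c41.app n41 (c42.app n42 (c43.app n43 (c44.app n44 (c45.app n45 (c46.app n46 (c47.app n47 (c48.app n48 (c49.app n49 (c50.app n50 (c51.app n51 (c52.app n52 (c53.app n53 (c54.app n54 (c55.app n55 (c56.app n56 (c57.app n57 (c58.app n58 (c59.app n59 (c60.app n60 (c61.app n61 (c62.app n62 (c63.app n63 (c64.app n64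 (c65.app n65 (c66.app n66 (c67.app n67 (c68.app n68 (c69.app n69 (c70.app n70 (c71.app n71 (c72.app n72 (c73.app n73 (c74.app n74 (c75.app n75 (c76.app n76 (c77.app n77 (c78.app n78 (c79.app n79 (c80.app n80 (c81.app n81 (c82.app n82 (c83.app n83 (c84.app n84 (c85.app n85 (c86.app n86 (c87.app n87 (c88.app n88 (c89.app n89 (c90.app n90 (c91.app n91 (c92.app n92 (c93.app n93 (c94.app n94 (c95.app n95 (c96.app n96 (c97.app n97 (c98.app n98 (c99.app n99 (c100.app n100 (c101.app n101 (c102.app n102 (c103.app n103 (c104.app n104 (c105.app n105 (c106.app n106 (c107.app n107 (c108.app n108 (c109.app n109 (c110.app n110 (c111.app n111 (c112.app n112 (c113.app n113 (c114.app n114 (c115.app n115 (c116.app n116 (c117.app n117 (c118.app n118 (c119.app n119 (c120.app n120 (c121.app n121 (c122.app n122 (c123.app n123 (c124.app n124 (c125.app n125 (c126.app n126 (c127.app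 n127 (c128.app n128 (c129.app n129 (c130.app n130 (c131.app n131 (c132.app n132 (c133.app n133 (c134.app n134 (c135.app n135 (c136.app n136 (c137.app n137 (c138.app n138 (c139.app n139 (c140.app n140 (c141.app n141 (c142.app n142 (c143.app n143 (c144.app n144 (c145.app n145 (c146.app n146 (c147.app n147 (c148.app n148 (c149.app n149 (c150.app n150 (c151.app n151 (c152.app n152 (c153.app n153 (c154.app n154 (c155.app n155 (c156.app n156 (c157.app n157 (c158.app n158 c159)))))))))))))))))))))))))))))))))))))))))))))))))))))))))))))))))))))))))))))))))))))))))))))))))))))))))))))))))))))))))))))))))))))))))))))))))))))))))))))))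

/-- the V side is nonnegative (table of the first leaves). -/
theorem sosV (x : Fin 7 → Fin 7 → ℂ) (hx : H138.Base x) : 0 ≤ evL (H693.Inj.riv x) ct oA :=
  cA.nonneg k0 k1 k2 k3 x hx

theorem okTab : H909V.Tr.okD 10 ct H950S.ct = true := by decide +kernel

theorem okLst : H909V.Tr.okL 1024 oA = true := by decide +kernel

/-- the V side is nonnegative. -/
theorem sos (x : Fin 7 → Fin 7 → ℂ) (hx : H138.Base x) :
    0 ≤ evL (H693.Inj.riv x) H950S.ct oA := by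
  rw [H909V.Tr.evL_tr okTab (by norm_num) okLst]
  exact sosV x hx

end Vale.Agent.P355.H909S
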